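import Vale.Agent.P284.H894.B1Glue
import Vale.Agent.P272.K.LIN.JetCalc

/-!
# CY, row L0, first part (helper35): extension by zero of a family of functions supported in a compact
subset of a piece; Hölder bounds, uniform in `γ`.
-/

open scoped NNReal Topology ContDiff
open Filter Set Metric

noncomputable section

set_option linter.unusedVariables false
set_option linter.unusedSectionVars false
set_option maxSynthPendingDepth 3

namespace Vale.Agent.P284.H35.CY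

open Vale.Agent.P272.K Vale.Agent.P272.K.LIN Vale.Agent.P284.H894

variable {n : ℕ} {Γ : Type} [Group Γ] (C : Coc n Γ)
  {V W U : Type*} [NormedAddCommGroup V] [NormedSpace ℝ V] [NormedAddCommGroup W] [NormedSpace ℝ W]
  [NormedAddCommGroup U] [NormedSpace ℝ U]

/-- The family `h` (on the piece `a`), extended by zero to all pieces. -/
def Ext (a : C.I) (h : Γ → Cm n → V) (γ : Γ) (b : C.I) (z : Cm n) : V := by
  classical
  exact if z ∈ C.O b a then h (γ * C.κ b a z) (C.T b a z) else 0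

/-- The same, with a coefficient. -/
def ExtP (a b : C.I) (P : Cm n → V →L[ℝ] W) (h : Γ → Cm n → V) (γ : Γ) (z : Cm n) : W := by
  classical
  exact if z ∈ C.O b a then P z (h (γ * C.κ b a z) (C.T b a z)) else 0

variable {C}

lemma Ext_mem {a b : C.I} {h : Γ → Cm n → V} {γ : Γ} {z : Cm n} (hz : z ∈ C.O b a) :
    Ext C a h γ b z = h (γ * C.κ b a z) (C.T b a z) := if_pos hz

lemma Ext_not {a b : C.I} {h : Γ → Cm n → V} {γ : Γ} {z : Cm n} (hz : z ∉ C.O b a) :
    Ext C a h γ b z = 0 := if_neg hz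

lemma ExtP_mem {a b : C.I} {P : Cm n → V →L[ℝ] W} {h : Γ → Cm n → V} {γ : Γ} {z : Cm n}
    (hz : z ∈ C.O b a) : ExtP C a b P h γ z = P z (h (γ * C.κ b a z) (C.T b a z)) := if_pos hz

lemma ExtP_not {a b : C.I} {P : Cm n → V →L[ℝ] W} {h : Γ → Cm n → V} {γ : Γ} {z : Cm n}
    (hz : z ∉ C.O b a) : ExtP C a b P h γ z = 0 := if_neg hz

lemma ExtP_id {a b : C.I} {h : Γ → Cm n → V} {γ : Γ} {z : Cm n} :
    ExtP C a b (fun _ => ContinuousLinearMap.id ℝ V) h γ z = Ext C a h γ b z := by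
  by_cases hz : z ∈ C.O b a
  · rw [ExtP_mem hz, Ext_mem hz]; rfl
  · rw [ExtP_not hz, Ext_not hz]

/-- The extension is a function on the covering space. -/
lemma Ext_change {a : C.I} (h : Γ → Cm n → V) (γ : Γ) (b d : C.I) {z : Cm n} (hz : z ∈ C.O b d) :
    Ext C a h γ b z = Ext C a h (γ * C.κ b d z) d (C.T b d z) := by
  by_cases h1 : z ∈ C.O b a
  · have hT := C.T_mem b d z hz
    -- `T b d z ∈ O d a`
    have hself : z ∈ C.O b b := by rw [C.O_self]; exact C.O_sub b d hz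
    have hinv : C.T d b (C.T b d z) = z := by
      have := C.trans_T b d b z hz hT
      rw [← this]; exact C.T_self b z hself
    have h2 : C.T b d z ∈ C.O d a := by
      refine C.trans_mem d b a (C.T b d z) hT ?_
      rw [hinv]; exact h1
    rw [Ext_mem h1, Ext_mem h2, C.trans_T b d a z hz h2, C.trans_κ b d a z hz h2, mul_assoc]
  · have h2 : C.T b d z ∉ C.O d a := fun h2 => h1 (C.trans_mem b d a z hz h2)
    rw [Ext_not h1, Ext_not h2]

/-- the points of the closed ball `b` which lie in the compact subset `Q` of the ball `a` -/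
def SQ (C : Coc n Γ) (a b : C.I) (Q : Set (Cm n)) : Set (Cm n) :=
  {z | z ∈ closedBall (C.c b) (3 * C.r b) ∧ z ∈ C.O b a ∧ C.T b a z ∈ Q}

lemma V_sub_Ω (a : C.I) : C.V a ⊆ C.Ω a :=
  ball_subset_ball (by have := C.r_pos a; linarith)

lemma cb_sub_Ω (a : C.I) : closedBall (C.c a) (3 * C.r a) ⊆ C.Ω a :=
  closedBall_subset_ball (by have := C.r_pos a; linarith)

lemma V_sub_cb (a : C.I) : C.V a ⊆ closedBall (C.c a) (3 * C.r a) := ball_subset_closedBall

lemma SQ_compact (a b : C.I) {Q : Set (Cm n)} (hQ : IsCompact Q) (hQa : Q ⊆ C.Ω a) :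
    IsCompact (SQ C a b Q) := by
  refine (isCompact_closedBall (C.c b) (3 * C.r b)).of_isClosed_subset ?_ fun z hz => hz.1
  rw [← isOpen_compl_iff, isOpen_iff_mem_nhds]
  intro z hz
  by_cases h : z ∈ closedBall (C.c b) (3 * C.r b)
  · have h1 : ¬ (z ∈ C.O b a ∧ C.T b a z ∈ Q) := fun h1 => hz ⟨h, h1⟩
    filter_upwards [C.closed b a Q hQ hQa z (cb_sub_Ω b h) h1] with z' hz' h2
    exact hz' h2.2
  · filter_upwards [isClosed_closedBall.isOpen_compl.mem_nhds h] with z' hz' h2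
    exact hz' h2.1

/-- `z'` is close to `z` -/
structure Gd (C : Coc n Γ) (a b : C.I) (P : Cm n → U) (D : ℝ) (z z' : Cm n) : Prop where
  mem : z' ∈ C.O b a
  κ : C.κ b a z' = C.κ b a z
  T : ‖C.T b a z - C.T b a z'‖ ≤ D * ‖z - z'‖
  lip : ‖P z - P z'‖ ≤ D * ‖z - z'‖
  bd : ‖P z‖ ≤ D
  bd' : ‖P z'‖ ≤ D

lemma Gd.mono {a b : C.I} {P : Cm n → U} {D D' : ℝ} {z z' : Cm n} (h : Gd C a b P D z z')
    (hD : D ≤ D') : Gd C a b P D' z z' :=
  ⟨h.mem, h.κ, h.T.trans (by gcongr), h.lip.trans (by gcongr), h.bd.trans hD, h.bd'.trans hD⟩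

/-- Uniform constants near a compact set. -/
lemma exists_sep {a b : C.I} {P : Cm n → U} (hP : ∀ z ∈ C.O b a, ContDiffAt ℝ 1 P z)
    {S : Set (Cm n)} (hS : IsCompact S) (hSO : S ⊆ C.O b a) :
    ∃ D δ : ℝ, 0 ≤ D ∧ 0 < δ ∧ ∀ z ∈ S, ∀ z', ‖z - z'‖ < δ → Gd C a b P D z z' := by
  refine hS.induction_on (p := fun S => ∃ D δ : ℝ, 0 ≤ D ∧ 0 < δ ∧
    ∀ z ∈ S, ∀ z', ‖z - z'‖ < δ → Gd C a b P D z z') ?_ ?_ ?_ ?_
  · exact ⟨0, 1, le_rfl, one_pos, fun z hz => hz.elim⟩
  · rintro s t hst ⟨D, δ, h0, h1, h⟩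
    exact ⟨D, δ, h0, h1, fun z hz => h z (hst hz)⟩
  · rintro s t ⟨D, δ, h0, h1, h⟩ ⟨D', δ', h0', h1', h'⟩
    refine ⟨max D D', min δ δ', le_max_of_le_left h0, lt_min h1 h1', ?_⟩
    rintro z (hz | hz) z' hz'
    · exact (h z hz z' (hz'.trans_le (min_le_left _ _))).mono (le_max_left _ _)
    · exact (h' z hz z' (hz'.trans_le (min_le_right _ _))).mono (le_max_right _ _)
  · intro z hz
    have hzO := hSO hz
    obtain ⟨K₁, t₁, ht₁, hl₁⟩ := ((C.T_smooth hzO).of_le (m := 1) (by simp)).exists_lipschitzOnWith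
    obtain ⟨K₂, t₂, ht₂, hl₂⟩ := (hP z hzO).exists_lipschitzOnWith
    have hbd : ∀ᶠ z' in 𝓝 z, ‖P z'‖ ≤ ‖P z‖ + 1 := by
      have h1 : ContinuousAt (fun z => ‖P z‖) z := (hP z hzO).continuousAt.norm
      exact (h1.eventually (gt_mem_nhds (lt_add_one _))).mono fun _ => le_of_lt
    have hall : ∀ᶠ z' in 𝓝 z, z' ∈ t₁ ∧ z' ∈ t₂ ∧ ‖P z'‖ ≤ ‖P z‖ + 1 ∧ z' ∈ C.O b a ∧
        C.κ b a z' = C.κ b a z := by
      filter_upwards [ht₁, ht₂, hbd, (C.O_open b a).mem_nhds hzO, C.κ_loc b a z hzO] with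
        z' a1 a2 a3 a4 a5
      exact ⟨a1, a2, a3, a4, a5⟩
    obtain ⟨ε, hε, hb⟩ := Metric.eventually_nhds_iff_ball.1 hall
    refine ⟨ball z (ε / 2), mem_nhdsWithin_of_mem_nhds (ball_mem_nhds _ (by positivity)),
      max (max K₁ K₂) (‖P z‖ + 1), ε / 2, by positivity, by positivity, ?_⟩
    intro x hx x' hx'
    have hxε : x ∈ ball z ε := ball_subset_ball (by linarith) hx
    have hx'ε : x' ∈ ball z ε := by
      rw [mem_ball] at hx ⊢
      have h1 : dist x' x < ε / 2 := by rwa [dist_comm, dist_eq_norm]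
      have := dist_triangle x' x z
      linarith
    obtain ⟨a1, a2, a3, a4, a5⟩ := hb x hxε
    obtain ⟨b1, b2, b3, b4, b5⟩ := hb x' hx'ε
    refine ⟨b4, b5.trans a5.symm, ?_, ?_, a3.trans (le_max_right _ _), b3.trans (le_max_right _ _)⟩
    · have := hl₁.dist_le_mul x a1 x' b1
      rw [dist_eq_norm, dist_eq_norm] at this
      refine this.trans ?_
      gcongr
      exact (le_max_left _ _).trans (le_max_left _ _)
    · have := hl₂.dist_le_mul x a2 x' b2
      rw [dist_eq_norm, dist_eq_norm] at this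
      refine this.trans ?_
      gcongr
      exact (le_max_right _ _).trans (le_max_left _ _)

/-- Hölder bounds of an extension with a coefficient, uniform in `γ`. -/
theorem ExtP_bound {α : ℝ} (h0 : 0 < α) (h1 : α ≤ 1) (a b : C.I) {Q : Set (Cm n)}
    (hQ : IsCompact Q) (hQa : Q ⊆ C.Ω a) {P : Cm n → V →L[ℝ] W}
    (hP : ∀ z ∈ C.O b a, ContDiffAt ℝ 1 P z) :
    ∃ D, 0 ≤ D ∧ ∀ (h : Γ → Cm n → V) (A B : ℝ), 0 ≤ A → 0 ≤ B → (∀ γ y, y ∉ Q → h γ y = 0) →
      (∀ γ, HB α (h γ) A B) → ∀ γ,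
      (∀ z ∈ closedBall (C.c b) (3 * C.r b), ‖ExtP C a b P h γ z‖ ≤ D * A) ∧
      ∀ z ∈ closedBall (C.c b) (3 * C.r b), ∀ z' ∈ closedBall (C.c b) (3 * C.r b),
        ‖ExtP C a b P h γ z - ExtP C a b P h γ z'‖ ≤ D * (A + B) * ‖z - z'‖ ^ α := by
  obtain ⟨D, δ, hD, hδ, hsep⟩ := exists_sep hP (SQ_compact a b hQ hQa) fun z hz => hz.2.1
  -- the diameter
  set R : ℝ := 6 * C.r b with hR
  have hR0 : 0 < R := by have := C.r_pos b; positivity
  refine ⟨D + D * D ^ α + D * (R ^ (1 - α)) + 2 * D * δ ^ (-α), by positivity, ?_⟩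
  intro h A B hA hB hsupp hHB γ
  have hzero : ∀ z ∈ closedBall (C.c b) (3 * C.r b), z ∉ SQ C a b Q → ExtP C a b P h γ z = 0 := by
    intro z hz hzS
    by_cases h2 : z ∈ C.O b a
    · rw [ExtP_mem h2, hsupp _ _ fun h3 => hzS ⟨hz, h2, h3⟩, map_zero]
    · exact ExtP_not h2
  have hsup : ∀ z ∈ closedBall (C.c b) (3 * C.r b), ‖ExtP C a b P h γ z‖ ≤ D * A := by
    intro z hz
    by_cases hzS : z ∈ SQ C a b Q
    · have hg := hsep z hzS z (by simpa using hδ)
      rw [ExtP_mem hg.mem]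
      exact ((P z).le_opNorm _).trans (mul_le_mul hg.bd ((hHB _).sup _) (norm_nonneg _) hD)
    · rw [hzero z hz hzS, norm_zero]; positivity
  have hnn : 0 ≤ D * D ^ α + D * (R ^ (1 - α)) + 2 * D * δ ^ (-α) := by positivity
  refine ⟨fun z hz => (hsup z hz).trans (mul_le_mul_of_nonneg_right (by linarith) hA), ?_⟩
  have key : ∀ z ∈ SQ C a b Q, ∀ z' ∈ closedBall (C.c b) (3 * C.r b),
      ‖ExtP C a b P h γ z - ExtP C a b P h γ z'‖ ≤
        (D + D * D ^ α + D * (R ^ (1 - α)) + 2 * D * δ ^ (-α)) * (A + B) * ‖z - z'‖ ^ α := by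
    intro z hz z' hz'
    have hr : 0 ≤ ‖z - z'‖ ^ α := Real.rpow_nonneg (norm_nonneg _) _
    rcases lt_or_ge ‖z - z'‖ δ with hlt | hge
    · have hg := hsep z hz z' hlt
      rw [ExtP_mem hz.2.1, ExtP_mem hg.mem, hg.κ]
      set g := γ * C.κ b a z
      have e1 : P z (h g (C.T b a z)) - P z' (h g (C.T b a z')) =
          P z' (h g (C.T b a z) - h g (C.T b a z')) + (P z - P z') (h g (C.T b a z)) := by
        rw [map_sub, _root_.sub_apply]; abel
      rw [e1]
      have e2 : ‖P z' (h g (C.T b a z) - h g (C.T b a z'))‖ ≤ D * (B * (D ^ α * ‖z - z'‖ ^ α)) := by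
        refine ((P z').le_opNorm _).trans (mul_le_mul hg.bd' ?_ (norm_nonneg _) hD)
        refine ((hHB g).hol _ _).trans (mul_le_mul_of_nonneg_left ?_ hB)
        rw [← Real.mul_rpow hD (norm_nonneg _)]
        exact Real.rpow_le_rpow (norm_nonneg _) hg.T h0.le
      have e3 : ‖(P z - P z') (h g (C.T b a z))‖ ≤ D * (R ^ (1 - α) * ‖z - z'‖ ^ α) * A := by
        refine ((P z - P z').le_opNorm _).trans (mul_le_mul ?_ ((hHB _).sup _) (norm_nonneg _)
          (by positivity))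
        refine hg.lip.trans (mul_le_mul_of_nonneg_left ?_ hD)
        rcases (norm_nonneg (z - z')).eq_or_lt with h2 | h2
        · rw [← h2]; positivity
        · have h3 : ‖z - z'‖ ≤ R := by
            have e4 := norm_sub_le (z - C.c b) (z' - C.c b)
            have e5 : ‖z - C.c b‖ ≤ 3 * C.r b := mem_closedBall_iff_norm.1 hz.1
            have e6 : ‖z' - C.c b‖ ≤ 3 * C.r b := mem_closedBall_iff_norm.1 hz'
            rw [sub_sub_sub_cancel_right] at e4
            linarith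
          calc ‖z - z'‖ = ‖z - z'‖ ^ (1 - α) * ‖z - z'‖ ^ α := by
                rw [← Real.rpow_add h2]; simp
            _ ≤ R ^ (1 - α) * ‖z - z'‖ ^ α := by
                refine mul_le_mul_of_nonneg_right ?_ hr
                exact Real.rpow_le_rpow h2.le h3 (by linarith)
      calc _ ≤ D * (B * (D ^ α * ‖z - z'‖ ^ α)) + D * (R ^ (1 - α) * ‖z - z'‖ ^ α) * A :=
            (norm_add_le _ _).trans (add_le_add e2 e3)
        _ ≤ _ := by
            have f1 : 0 ≤ D * (A + B) * ‖z - z'‖ ^ α := by positivity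
            have f2 : 0 ≤ D * D ^ α * A * ‖z - z'‖ ^ α := by positivity
            have f3 : 0 ≤ D * R ^ (1 - α) * B * ‖z - z'‖ ^ α := by positivity
            have f4 : 0 ≤ 2 * D * δ ^ (-α) * (A + B) * ‖z - z'‖ ^ α := by positivity
            nlinarith
    · have hcb : z ∈ closedBall (C.c b) (3 * C.r b) := hz.1
      calc _ ≤ D * A + D * A := (norm_sub_le _ _).trans (add_le_add (hsup z hcb) (hsup z' hz'))
        _ = 2 * D * A * (δ ^ (-α) * δ ^ α) := by rw [← Real.rpow_add hδ]; simp; ring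
        _ ≤ 2 * D * A * (δ ^ (-α) * ‖z - z'‖ ^ α) := by gcongr
        _ ≤ _ := by
            have f1 : 0 ≤ D * (A + B) * ‖z - z'‖ ^ α := by positivity
            have f2 : 0 ≤ D * D ^ α * (A + B) * ‖z - z'‖ ^ α := by positivity
            have f3 : 0 ≤ D * R ^ (1 - α) * (A + B) * ‖z - z'‖ ^ α := by positivity
            have f4 : 0 ≤ 2 * D * δ ^ (-α) * B * ‖z - z'‖ ^ α := by positivity
            nlinarith
  intro z hz z' hz'
  by_cases hzS : z ∈ SQ C a b Q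
  · exact key z hzS z' hz'
  · by_cases hzS' : z' ∈ SQ C a b Q
    · have := key z' hzS' z hz
      rwa [norm_sub_rev, norm_sub_rev z'] at this
    · rw [hzero z hz hzS, hzero z' hz' hzS', sub_zero, norm_zero]
      positivity

/-- I3, on the pieces. -/
theorem Ext_bound {α : ℝ} (h0 : 0 < α) (h1 : α ≤ 1) (a : C.I) {Q : Set (Cm n)}
    (hQ : IsCompact Q) (hQa : Q ⊆ C.Ω a) :
    ∃ D, 0 ≤ D ∧ ∀ (h : Γ → Cm n → V) (A B : ℝ), 0 ≤ A → 0 ≤ B → (∀ γ y, y ∉ Q → h γ y = 0) →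
      (∀ γ, HB α (h γ) A B) → ∀ γ b,
      (∀ z, ‖Ext C a h γ b z‖ ≤ A) ∧
      ∀ z ∈ closedBall (C.c b) (3 * C.r b), ∀ z' ∈ closedBall (C.c b) (3 * C.r b),
        ‖Ext C a h γ b z - Ext C a h γ b z'‖ ≤ D * (A + B) * ‖z - z'‖ ^ α := by
  have H := fun b : C.I => ExtP_bound (C := C) (V := V) (W := V) h0 h1 a b hQ hQa
    (P := fun _ => ContinuousLinearMap.id ℝ V) fun _ _ => contDiffAt_const
  choose D hD H using H
  refine ⟨∑ b, D b, Finset.sum_nonneg fun b _ => hD b, fun h A B hA hB hs hHB γ b => ⟨fun z => ?_,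
    fun z hz z' hz' => ?_⟩⟩
  · by_cases hz : z ∈ C.O b a
    · rw [Ext_mem hz]; exact (hHB _).sup _
    · rw [Ext_not hz, norm_zero]; exact hA
  · have h2 := (H b h A B hA hB hs hHB γ).2 z hz z' hz'
    rw [ExtP_id, ExtP_id] at h2
    refine h2.trans ?_
    have h3 : D b ≤ ∑ b, D b := Finset.single_le_sum (fun b _ => hD b) (Finset.mem_univ b)
    gcongr

end Vale.Agent.P284.H35.CY
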