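import Vale.Agent.P284.H730.CY.Defs
import Vale.Agent.P284.H35.CY.L0a
import Vale.Agent.P272.K.LIN.Patch1

/-!
# CY, row L0 (helper35): extension by zero of families supported in a compact subset of a piece, as
elements of `HA` and `C2A`.
-/

open scoped NNReal Topology ContDiff
open Filter Set Metric

noncomputable section

set_option linter.unusedVariables false
set_option linter.unusedSectionVars false
set_option maxSynthPendingDepth 3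

namespace Vale.Agent.P284.H35.CY

open Vale.Agent.P272.K Vale.Agent.P272.K.LIN Vale.Agent.P284.H894 Vale.Agent.P284.H730.CY

variable {n : ℕ} {Γ : Type} [Group Γ] {C : Coc n Γ}

/-! ### From the pieces to `Hol (wt C α) V` -/

/-- A family on the pieces, bounded and Hölder on the balls, uniformly, is an element of `Hol`. -/
theorem exists_hol {V : Type} [NormedAddCommGroup V] {α A B : ℝ} (hA : 0 ≤ A) (hB : 0 ≤ B)
    (f : Γ → C.I → Cm n → V) (h0 : ∀ γ a, ∀ z ∈ C.V a, ‖f γ a z‖ ≤ A)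
    (h1 : ∀ γ a, ∀ z ∈ C.V a, ∀ z' ∈ C.V a, ‖f γ a z - f γ a z'‖ ≤ B * ‖z - z'‖ ^ α) :
    ∃ F : Hol (wt C α) V, (∀ p : Pt C, F p = f p.γ p.a p.z) ∧ F.N0 ≤ A ∧ F.N1 ≤ B + 2 * A := by
  have key : ∀ p q : Pt C, ‖f p.γ p.a p.z - f q.γ q.a q.z‖ ≤ (B + 2 * A) * wt C α p q := by
    rintro ⟨γ, a, z, hz⟩ ⟨γ', a', z', hz'⟩
    by_cases h : γ = γ' ∧ a = a'
    · obtain ⟨rfl, rfl⟩ := h
      have e : ((wt C α ⟨γ, a, z, hz⟩ ⟨γ, a, z', hz'⟩ : ℝ≥0) : ℝ) = ‖z - z'‖ ^ α := by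
        simp [wt, NNReal.coe_rpow]
      rw [e]
      refine (h1 γ a z hz z' hz').trans ?_
      have : 0 ≤ ‖z - z'‖ ^ α := Real.rpow_nonneg (norm_nonneg _) _
      nlinarith
    · have e : ((wt C α ⟨γ, a, z, hz⟩ ⟨γ', a', z', hz'⟩ : ℝ≥0) : ℝ) = 1 := by
        simp only [wt, if_neg h, NNReal.coe_one]
      rw [e]
      refine (norm_sub_le _ _).trans ?_
      have := h0 γ a z hz
      have := h0 γ' a' z' hz'
      show ‖f γ a z‖ + ‖f γ' a' z'‖ ≤ _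
      linarith
  refine ⟨⟨fun p => f p.γ p.a p.z, ⟨A, fun p => h0 _ _ _ p.mem⟩, ⟨B + 2 * A, key⟩⟩,
    fun p => rfl, Hol.N0_le hA fun p => h0 _ _ _ p.mem, Hol.N1_le (by positivity) key⟩

/-- The converse. -/
lemma hol_le {V : Type} [NormedAddCommGroup V] {α : ℝ} (F : Hol (wt C α) V) (γ : Γ) (a : C.I)
    {z z' : Cm n} (hz : z ∈ C.V a) (hz' : z' ∈ C.V a) :
    ‖fam F γ a z - fam F γ a z'‖ ≤ F.N1 * ‖z - z'‖ ^ α := by
  have e : ((wt C α ⟨γ, a, z, hz⟩ ⟨γ, a, z', hz'⟩ : ℝ≥0) : ℝ) = ‖z - z'‖ ^ α := by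
    simp [wt, NNReal.coe_rpow]
  rw [fam_of_mem _ _ _ hz, fam_of_mem _ _ _ hz', ← e]
  exact F.le_N1 _ _

lemma fam_le {V : Type} [NormedAddCommGroup V] {α : ℝ} (F : Hol (wt C α) V) (γ : Γ) (a : C.I)
    (z : Cm n) : ‖fam F γ a z‖ ≤ F.N0 := by
  by_cases hz : z ∈ C.V a
  · rw [fam_of_mem _ _ _ hz]; exact F.le_N0 _
  · have : fam (F : Pt C → V) γ a z = 0 := by simp [fam, hz]
    rw [this, norm_zero]; exact F.N0_nonneg

/-- **I1** (coefficient form): a Hölder function on the covering, cut off in a piece. -/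
theorem cut_bound {V W : Type} [NormedAddCommGroup V] [NormedSpace ℝ V] [NormedAddCommGroup W]
    [NormedSpace ℝ W] {α : ℝ} (h0 : 0 < α) (a : C.I) {κ : Cm n → V →L[ℝ] W} {Q : Set (Cm n)}
    (hQ : Q ⊆ C.V a) (hκ : ∀ y, y ∉ Q → κ y = 0) {A B : ℝ} (hHB : HB α κ A B) :
    ∀ (g : Hol (wt C α) V) (γ : Γ), HB α (fun y => κ y (fam g γ a y)) ((|A| + |B|) * g.N0)
      ((|A| + |B|) * (g.N0 + g.N1)) := by
  intro g γ
  have hn0 := g.N0_nonneg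
  have hn1 := g.N1_nonneg
  have hκA : ∀ y, ‖κ y‖ ≤ |A| := fun y => (hHB.sup y).trans (le_abs_self _)
  refine ⟨fun y => ?_, fun y y' => ?_⟩
  · refine ((κ y).le_opNorm _).trans ?_
    exact mul_le_mul ((hκA y).trans (by linarith [abs_nonneg B])) (fam_le g γ a y) (norm_nonneg _)
      (by positivity)
  have hr : 0 ≤ ‖y - y'‖ ^ α := Real.rpow_nonneg (norm_nonneg _) _
  have hB' : ‖κ y - κ y'‖ ≤ |B| * ‖y - y'‖ ^ α :=
    (hHB.hol y y').trans (mul_le_mul_of_nonneg_right (le_abs_self _) hr)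
  have key1 : ∀ x, ‖κ y (fam g γ a x) - κ y' (fam g γ a x)‖ ≤ |B| * ‖y - y'‖ ^ α * g.N0 := by
    intro x
    rw [← _root_.sub_apply]
    exact ((κ y - κ y').le_opNorm _).trans (mul_le_mul hB' (fam_le g γ a x) (norm_nonneg _)
      (by positivity))
  by_cases hy : y ∈ Q
  · by_cases hy' : y' ∈ Q
    · have h2 : κ y (fam g γ a y) - κ y' (fam g γ a y') =
          κ y (fam g γ a y - fam g γ a y') + (κ y (fam g γ a y') - κ y' (fam g γ a y')) := by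
        rw [map_sub]; abel
      rw [h2]
      have h3 : ‖κ y (fam g γ a y - fam g γ a y')‖ ≤ |A| * (g.N1 * ‖y - y'‖ ^ α) :=
        ((κ y).le_opNorm _).trans (mul_le_mul (hκA y) (hol_le g γ a (hQ hy) (hQ hy'))
          (norm_nonneg _) (abs_nonneg _))
      calc _ ≤ |A| * (g.N1 * ‖y - y'‖ ^ α) + |B| * ‖y - y'‖ ^ α * g.N0 :=
            (norm_add_le _ _).trans (add_le_add h3 (key1 y'))
        _ ≤ _ := by
            have h4 : 0 ≤ |A| * g.N0 * ‖y - y'‖ ^ α := by positivity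
            have h5 : 0 ≤ |B| * g.N1 * ‖y - y'‖ ^ α := by positivity
            nlinarith
    · have h2 : κ y' = 0 := hκ y' hy'
      have h3 := key1 y
      rw [h2, _root_.zero_apply, sub_zero] at h3
      rw [h2, _root_.zero_apply, sub_zero]
      refine h3.trans ?_
      have h4 : 0 ≤ |A| * (g.N0 + g.N1) * ‖y - y'‖ ^ α := by positivity
      have h5 : 0 ≤ |B| * g.N1 * ‖y - y'‖ ^ α := by positivity
      nlinarith
  · have h2 : κ y = 0 := hκ y hy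
    have h3 := key1 y'
    rw [h2, _root_.zero_apply, zero_sub] at h3
    rw [h2, _root_.zero_apply, zero_sub]
    refine h3.trans ?_
    have h4 : 0 ≤ |A| * (g.N0 + g.N1) * ‖y - y'‖ ^ α := by positivity
    have h5 : 0 ≤ |B| * g.N1 * ‖y - y'‖ ^ α := by positivity
    nlinarith

/-- **I1**: `ψ g` is Hölder on `Cm n`, uniformly in `γ`. -/
theorem I1 {α : ℝ} (h0 : 0 < α) (h1 : α ≤ 1) (a : C.I) {Q : Set (Cm n)} (hQ : IsCompact Q)
    (hQV : Q ⊆ C.V a) {ψ : Cm n → ℝ} (hψ : ContDiff ℝ ∞ ψ) (hψ0 : ∀ y, y ∉ Q → ψ y = 0) :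
    ∃ D, 0 ≤ D ∧ ∀ (g : Hol (wt C α) ℝ) (γ : Γ),
      HB α (fun y => ψ y * fam g γ a y) (D * g.N0) (D * (g.N0 + g.N1)) := by
  obtain ⟨A, B, -, -, hHB⟩ := hb_of_K (α := α) h0 h1
    (c := fun y => ψ y • ContinuousLinearMap.id ℝ ℝ)
    ((hψ.of_le one_le_inf).smul contDiff_const) hQ (fun y hy => by rw [hψ0 y hy, zero_smul])
  exact ⟨|A| + |B|, by positivity, cut_bound h0 a hQV
    (fun y hy => by rw [hψ0 y hy, zero_smul]) hHB⟩

/-! ### Local facts -/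

lemma Ext_self {V : Type*} [NormedAddCommGroup V] [NormedSpace ℝ V] {a : C.I} {h : Γ → Cm n → V}
    {γ : Γ} {z : Cm n} (hz : z ∈ C.Ω a) : Ext C a h γ a z = h γ z := by
  have hz' : z ∈ C.O a a := by rw [C.O_self]; exact hz
  rw [Ext_mem hz', C.κ_self a z hz', C.T_self a z hz', mul_one]

/-- The extension vanishes near the points outside of `Q`. -/
lemma Ext_ev_zero {V : Type*} [NormedAddCommGroup V] [NormedSpace ℝ V] {a b : C.I} {Q : Set (Cm n)}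
    (hQ : IsCompact Q) (hQa : Q ⊆ C.Ω a) {z : Cm n} (hz : z ∈ C.Ω b)
    (hzQ : ¬ (z ∈ C.O b a ∧ C.T b a z ∈ Q)) :
    ∀ᶠ z' in 𝓝 z, ∀ (h : Γ → Cm n → V) (γ : Γ), (∀ γ y, y ∉ Q → h γ y = 0) →
      Ext C a h γ b z' = 0 := by
  filter_upwards [C.closed b a Q hQ hQa z hz hzQ] with z' hz' h γ hs
  by_cases h1 : z' ∈ C.O b a
  · rw [Ext_mem h1]
    exact hs _ _ fun h2 => hz' ⟨h1, h2⟩
  · exact Ext_not h1

lemma Ext_eq_zero {V : Type*} [NormedAddCommGroup V] [NormedSpace ℝ V] {a b : C.I} {Q : Set (Cm n)}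
    {z : Cm n} (hzQ : ¬ (z ∈ C.O b a ∧ C.T b a z ∈ Q)) {h : Γ → Cm n → V} {γ : Γ}
    (hs : ∀ γ y, y ∉ Q → h γ y = 0) : Ext C a h γ b z = 0 := by
  by_cases h1 : z ∈ C.O b a
  · rw [Ext_mem h1]
    exact hs _ _ fun h2 => hzQ ⟨h1, h2⟩
  · exact Ext_not h1

/-- Near a point of `O b a`. -/
lemma Ext_ev {V : Type*} [NormedAddCommGroup V] [NormedSpace ℝ V] {a b : C.I} {z : Cm n}
    (hz : z ∈ C.O b a) (h : Γ → Cm n → V) (γ : Γ) :
    Ext C a h γ b =ᶠ[𝓝 z] fun z' => h (γ * C.κ b a z) (C.T b a z') := by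
  filter_upwards [(C.O_open b a).mem_nhds hz, C.κ_loc b a z hz] with z' h1 h2
  rw [Ext_mem h1, h2]

/-- The extension of a smooth family is smooth. -/
lemma Ext_contDiffAt {V : Type*} [NormedAddCommGroup V] [NormedSpace ℝ V] {a b : C.I}
    {Q : Set (Cm n)} (hQ : IsCompact Q) (hQa : Q ⊆ C.Ω a) {k : WithTop ℕ∞} (hk : k ≤ ∞) {z : Cm n}
    (hz : z ∈ C.Ω b) {h : Γ → Cm n → V} (hs : ∀ γ y, y ∉ Q → h γ y = 0)
    (hc : ∀ γ, ∀ y ∈ C.Ω a, ContDiffAt ℝ k (h γ) y) (γ : Γ) :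
    ContDiffAt ℝ k (Ext C a h γ b) z := by
  by_cases h1 : z ∈ C.O b a
  · refine ContDiffAt.congr_of_eventuallyEq ?_ (Ext_ev h1 h γ)
    exact ContDiffAt.comp z (hc _ _ (C.O_sub a b (C.T_mem b a z h1))) ((C.T_smooth h1).of_le hk)
  · have h2 : Ext C a h γ b =ᶠ[𝓝 z] fun _ => 0 := by
      filter_upwards [Ext_ev_zero (V := V) hQ hQa hz fun h3 => h1 h3.1] with z' hz'
      exact hz' h γ hs
    exact contDiffAt_const.congr_of_eventuallyEq h2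

/-! ### Jets of the extension -/

/-- the change of jets -/
def PJ (C : Coc n Γ) (a b : C.I) (z : Cm n) : Jet (Cm n) →L[ℝ] Jet (Cm n) :=
  JT (fderiv ℝ (C.T b a) z) (fderiv ℝ (fderiv ℝ (C.T b a)) z)

lemma PJ_contDiffAt {a b : C.I} {z : Cm n} (hz : z ∈ C.O b a) : ContDiffAt ℝ 1 (PJ C a b) z := by
  have h := C.T_smooth hz
  have h1 : ContDiffAt ℝ ∞ (fderiv ℝ (C.T b a)) z := h.fderiv_right (m := ∞) (by simp)
  have h2 : ContDiffAt ℝ ∞ (fderiv ℝ (fderiv ℝ (C.T b a))) z := h1.fderiv_right (m := ∞) (by simp)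
  have h3 : ContDiffAt ℝ ∞ (fun q : (Cm n →L[ℝ] Cm n) × (Cm n →L[ℝ] Cm n →L[ℝ] Cm n) =>
      JT q.1 q.2) (fderiv ℝ (C.T b a) z, fderiv ℝ (fderiv ℝ (C.T b a)) z) :=
    (contDiff_JT (E := Cm n) (F := Cm n)).contDiffAt
  refine ContDiffAt.of_le (n := ∞) ?_ (by simp)
  show ContDiffAt ℝ ∞ ((fun q : (Cm n →L[ℝ] Cm n) × (Cm n →L[ℝ] Cm n →L[ℝ] Cm n) => JT q.1 q.2) ∘
    fun y => (fderiv ℝ (C.T b a) y, fderiv ℝ (fderiv ℝ (C.T b a)) y)) z
  exact ContDiffAt.comp z h3 (h1.prodMk h2)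

/-- The jets of the extension of `β v`. -/
lemma jet_Ext {a b : C.I} {Q : Set (Cm n)} (hQ : IsCompact Q) (hQa : Q ⊆ C.Ω a) {β : Cm n → ℝ}
    (hβ : ContDiff ℝ ∞ β) (hβ0 : ∀ y, y ∉ Q → β y = 0) {v : Γ → Cm n → ℝ}
    (hv : ∀ γ, ContDiff ℝ 2 (v γ)) (γ : Γ) {z : Cm n} (hz : z ∈ C.Ω b) :
    jet (Ext C a (fun γ y => β y * v γ y) γ b) z =
      ExtP C a b (PJ C a b) (fun γ y => JM (jet β y) (jet (v γ) y)) γ z := by
  by_cases h1 : z ∈ C.O b a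
  · rw [jet_congr (Ext_ev h1 _ γ), ExtP_mem h1]
    have h2 := jet_comp (g := fun y => β y * v (γ * C.κ b a z) y) (φ := C.T b a) (y := z)
      ((hβ.contDiffAt.of_le two_le_inf).mul (hv _).contDiffAt) ((C.T_smooth h1).of_le two_le_inf)
    rw [h2, jet_mul (hβ.contDiffAt.of_le two_le_inf) (hv _).contDiffAt]
    rfl
  · have h2 : Ext C a (fun γ y => β y * v γ y) γ b =ᶠ[𝓝 z] fun _ => 0 := by
      filter_upwards [Ext_ev_zero (V := ℝ) hQ hQa hz fun h3 => h1 h3.1] with z' hz'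
      exact hz' _ γ fun γ y hy => by rw [hβ0 y hy, zero_mul]
    rw [jet_congr h2, ExtP_not h1]
    unfold jet
    simp

/-! ### I3 and I2 -/

/-- **I3**: the extension of a Hölder family supported in `Q` is an element of `HA`. -/
theorem I3 {α : ℝ} (h0 : 0 < α) (h1 : α ≤ 1) (a : C.I) {Q : Set (Cm n)} (hQ : IsCompact Q)
    (hQV : Q ⊆ C.V a) :
    ∃ D, 0 ≤ D ∧ ∀ (h : Γ → Cm n → ℝ) (A B : ℝ), 0 ≤ A → 0 ≤ B → (∀ γ y, y ∉ Q → h γ y = 0) →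
      (∀ γ, HB α (h γ) A B) → ∃ R : HA C α,
        (∀ p : Pt C, (R : Hol (wt C α) ℝ) p = Ext C a h p.γ p.a p.z) ∧
        (R : Hol (wt C α) ℝ).N0 ≤ A ∧ (R : Hol (wt C α) ℝ).N1 ≤ D * (A + B) := by
  obtain ⟨D, hD, H⟩ := Ext_bound (C := C) (V := ℝ) h0 h1 a hQ (hQV.trans (V_sub_Ω a))
  refine ⟨D + 2, by positivity, fun h A B hA hB hs hHB => ?_⟩
  have H' := H h A B hA hB hs hHB
  obtain ⟨R, hR, hR0, hR1⟩ := exists_hol (C := C) (α := α) hA (B := D * (A + B)) (by positivity)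
    (fun γ b z => Ext C a h γ b z) (fun γ b z _ => (H' γ b).1 z)
    (fun γ b z hz z' hz' => (H' γ b).2 z (V_sub_cb b hz) z' (V_sub_cb b hz'))
  refine ⟨⟨R, fun p q hpq => ?_⟩, hR, hR0, hR1.trans (by nlinarith)⟩
  rw [hR, hR, hpq.T, hpq.κ]
  exact Ext_change h p.γ p.a q.a hpq.mem

/-- **I2**: the extension of `β v` is an element of `C2A`. -/
theorem I2 {α : ℝ} (h0 : 0 < α) (h1 : α ≤ 1) (a : C.I) {Q : Set (Cm n)} (hQ : IsCompact Q)
    (hQV : Q ⊆ C.V a) {β : Cm n → ℝ} (hβ : ContDiff ℝ ∞ β) (hβ0 : ∀ y, y ∉ Q → β y = 0) :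
    ∃ D, 0 ≤ D ∧ ∀ (v : Γ → Cm n → ℝ), (∀ γ, ContDiff ℝ 2 (v γ)) → ∀ M : ℝ, 0 ≤ M →
      (∀ γ, HB α (jet (v γ)) M M) → ∃ u : C2A C α,
        (∀ γ b, ∀ z ∈ C.V b, fn u γ b z = Ext C a (fun γ y => β y * v γ y) γ b z) ∧
        ‖u‖ ≤ D * M := by
  have hQa := hQV.trans (V_sub_Ω a)
  obtain ⟨A₂, B₂, hA₂, hB₂, hβHB⟩ := hb_of_K (α := α) h0 h1 (hβ.of_le one_le_inf) hQ hβ0
  have hjβ : ContDiff ℝ 1 fun y => JM (jet β y) := by
    have h2 : ContDiff ℝ ∞ (jet β) := contDiff_iff_contDiffAt.2 fun y =>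
      contDiffAt_jet (k := ∞) hβ.contDiffAt
    exact (contDiff_JM.comp h2).of_le one_le_inf
  have hjβ0 : ∀ y, y ∉ Q → JM (jet β y) = 0 := fun y hy => by
    rw [Cov.jet_eq_zero hQ.isClosed hβ0 hy, Cov.JM_zero]
  obtain ⟨Ac, Bc, hAc, hBc, hcHB⟩ := hb_of_K (α := α) h0 h1 hjβ hQ hjβ0
  obtain ⟨D₁, hD₁, H1⟩ := Ext_bound (C := C) (V := ℝ) h0 h1 a hQ hQa
  have H2 := fun b : C.I => ExtP_bound (C := C) (V := Jet (Cm n)) (W := Jet (Cm n)) h0 h1 a b hQ hQa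
    (P := PJ C a b) fun z hz => PJ_contDiffAt hz
  choose D₂ hD₂ H2 using H2
  set E₂ : ℝ := ∑ b, D₂ b with hE₂
  have hE₂0 : 0 ≤ E₂ := Finset.sum_nonneg fun b _ => hD₂ b
  have hE₂' : ∀ b, D₂ b ≤ E₂ := fun b =>
    Finset.single_le_sum (fun b _ => hD₂ b) (Finset.mem_univ b)
  refine ⟨(3 * A₂ + D₁ * (2 * A₂ + B₂)) + (3 * E₂ * Ac + E₂ * (2 * Ac + Bc)), by positivity,
    fun v hv M hM hj => ?_⟩
  have hv1 : ∀ γ, HB α (v γ) M M := fun γ => ⟨fun y => (norm_fst_le (jet (v γ) y)).trans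
    ((hj γ).sup y), fun y y' => (norm_fst_le (jet (v γ) y - jet (v γ) y')).trans ((hj γ).hol y y')⟩
  have hz : ∀ (γ : Γ) y, y ∉ Q → β y * v γ y = 0 := fun γ y hy => by rw [hβ0 y hy, zero_mul]
  have hzj : ∀ (γ : Γ) y, y ∉ Q → JM (jet β y) (jet (v γ) y) = 0 := fun γ y hy => by
    rw [hjβ0 y hy, _root_.zero_apply]
  have G1 := H1 (fun γ y => β y * v γ y) (A₂ * M) (A₂ * M + B₂ * M) (by positivity) (by positivity)
    hz fun γ => hb_mul hβHB hA₂ hB₂ (hv1 γ)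
  have G2 := fun b γ => H2 b (fun γ y => JM (jet β y) (jet (v γ) y)) (Ac * M) (Ac * M + Bc * M)
    (by positivity) (by positivity) hzj (fun γ => hb_apply hAc hBc hcHB (hj γ)) γ
  obtain ⟨f, hf, hf0, hf1⟩ := exists_hol (C := C) (α := α) (A := A₂ * M) (by positivity)
    (B := D₁ * (A₂ * M + (A₂ * M + B₂ * M))) (by positivity)
    (fun γ b z => Ext C a (fun γ y => β y * v γ y) γ b z) (fun γ b z _ => (G1 γ b).1 z)
    (fun γ b z hz z' hz' => (G1 γ b).2 z (V_sub_cb b hz) z' (V_sub_cb b hz'))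
  obtain ⟨j, hj', hj0, hj1⟩ := exists_hol (C := C) (α := α) (A := E₂ * (Ac * M)) (by positivity)
    (B := E₂ * (Ac * M + (Ac * M + Bc * M))) (by positivity)
    (fun γ b z => ExtP C a b (PJ C a b) (fun γ y => JM (jet β y) (jet (v γ) y)) γ z)
    (fun γ b z hz => ((G2 b γ).1 z (V_sub_cb b hz)).trans (by gcongr; exact hE₂' b))
    (fun γ b z hz z' hz' => ((G2 b γ).2 z (V_sub_cb b hz) z' (V_sub_cb b hz')).trans (by
      gcongr; exact hE₂' b))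
  have hfam : ∀ (γ : Γ) (b : C.I), ∀ z ∈ C.V b, fam (f : Pt C → ℝ) γ b z =
      Ext C a (fun γ y => β y * v γ y) γ b z := fun γ b z hz => by
    rw [fam_of_mem _ _ _ hz, hf]
  have hev : ∀ (γ : Γ) (b : C.I), ∀ z ∈ C.V b, fam (f : Pt C → ℝ) γ b =ᶠ[𝓝 z]
      Ext C a (fun γ y => β y * v γ y) γ b := fun γ b z hz => by
    filter_upwards [(V_open C b).mem_nhds hz] with z' hz'
    exact hfam γ b z' hz'
  refine ⟨⟨(f, j), fun p q hpq => ?_, fun p => ⟨?_, ?_⟩⟩, hfam, ?_⟩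
  · show f p = f q
    rw [hf, hf, hpq.T, hpq.κ]
    exact Ext_change _ p.γ p.a q.a hpq.mem
  · show ContDiffAt ℝ 2 (fam (f : Pt C → ℝ) p.γ p.a) p.z
    refine ContDiffAt.congr_of_eventuallyEq ?_ (hev p.γ p.a p.z p.mem)
    exact Ext_contDiffAt hQ hQa two_le_inf (V_sub_Ω _ p.mem) hz
      (fun γ y _ => (hβ.contDiffAt.of_le two_le_inf).mul (hv γ).contDiffAt) p.γ
  · show j p = jet (fam (f : Pt C → ℝ) p.γ p.a) p.z
    rw [jet_congr (hev p.γ p.a p.z p.mem), hj', jet_Ext hQ hQa hβ hβ0 hv p.γ (V_sub_Ω _ p.mem)]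
  · show ‖((f, j) : Hol (wt C α) ℝ × Hol (wt C α) (Jet (Cm n)))‖ ≤ _
    rw [Prod.norm_def]
    have e1 : ‖f‖ ≤ (3 * A₂ + D₁ * (2 * A₂ + B₂)) * M := by
      rw [Hol.norm_def]; nlinarith
    have e2 : ‖j‖ ≤ (3 * E₂ * Ac + E₂ * (2 * Ac + Bc)) * M := by
      rw [Hol.norm_def]; nlinarith
    have e3 : 0 ≤ (3 * A₂ + D₁ * (2 * A₂ + B₂)) * M := by positivity
    have e4 : 0 ≤ (3 * E₂ * Ac + E₂ * (2 * Ac + Bc)) * M := by positivity
    refine max_le ?_ ?_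
    · refine e1.trans ?_; rw [add_mul]; linarith
    · refine e2.trans ?_; rw [add_mul]; linarith

end Vale.Agent.P284.H35.CY
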