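import Vale.Agent.P284.H35.CY.L0

/-!
# CY, row L2 (helper35): a finite partition of unity by small balls.
-/

open scoped NNReal Topology ContDiff
open Filter Set Metric

noncomputable section

set_option linter.unusedVariables false
set_option linter.unusedSectionVars false
set_option maxSynthPendingDepth 3

namespace Vale.Agent.P284.H35.CY

open Vale.Agent.P272.K Vale.Agent.P272.K.LIN Vale.Agent.P284.H894 Vale.Agent.P284.H730.CY

variable {n : ℕ} {Γ : Type} [Group Γ] {C : Coc n Γ}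

/-- Product of an invariant function and an extension. -/
lemma Ext_mul_inv {a : C.I} (S : C.I → Cm n → ℝ)
    (hS : ∀ b, ∀ z ∈ C.O b a, S b z = S a (C.T b a z)) (h : Γ → Cm n → ℝ) (γ : Γ) (b : C.I)
    (z : Cm n) : Ext C a (fun γ y => S a y * h γ y) γ b z = S b z * Ext C a h γ b z := by
  by_cases hz : z ∈ C.O b a
  · rw [Ext_mem hz, Ext_mem hz, hS b z hz]
  · rw [Ext_not hz, Ext_not hz, mul_zero]

/-- A finite partition of unity by functions supported in balls of a given small radius. -/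
theorem exists_pu (C : Coc n Γ) (ρ : ℝ) (hρ : 0 < ρ) (hr : ∀ a, 2 * ρ < 2 * C.r a) :
    ∃ (J : Type) (_ : Fintype J) (a : J → C.I) (x : J → Cm n) (ψ : J → Cm n → ℝ),
      (∀ j, x j ∈ closedBall (C.c (a j)) (C.r (a j))) ∧
      (∀ j, closedBall (x j) (2 * ρ) ⊆ C.V (a j)) ∧ (∀ j, ContDiff ℝ ∞ (ψ j)) ∧
      (∀ j y, y ∉ closedBall (x j) (2 * ρ) → ψ j y = 0) ∧
      ∀ (γ : Γ) (b : C.I), ∀ z ∈ C.Ω b, ∑ j, Ext C (a j) (fun _ => ψ j) γ b z = 1 := by
  classical
  -- the centres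
  have hcov : ∀ a : C.I, ∃ t : Finset (Cm n), (∀ x ∈ t, x ∈ closedBall (C.c a) (C.r a)) ∧
      closedBall (C.c a) (C.r a) ⊆ ⋃ x ∈ t, ball x ρ := by
    intro a
    obtain ⟨t, ht, hfin, hc⟩ := (isCompact_closedBall (C.c a) (C.r a)).finite_cover_balls hρ
    refine ⟨hfin.toFinset, fun x hx => ht (hfin.mem_toFinset.1 hx), ?_⟩
    simpa using hc
  choose t ht htc using hcov
  let J : Type := Σ a : C.I, {x // x ∈ t a}
  let θ : J → Cm n → ℝ := fun j =>
    ((⟨ρ, 2 * ρ, hρ, by linarith⟩ : ContDiffBump (j.2 : Cm n)) : Cm n → ℝ)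
  have hθs : ∀ j, ContDiff ℝ ∞ (θ j) := fun j => ContDiffBump.contDiff _
  have hθ0 : ∀ j y, y ∉ closedBall (j.2 : Cm n) (2 * ρ) → θ j y = 0 := fun j y hy => by
    apply ContDiffBump.zero_of_le_dist
    simp only [mem_closedBall, not_le] at hy
    exact hy.le
  have hθ1 : ∀ j y, y ∈ ball (j.2 : Cm n) ρ → θ j y = 1 := fun j y hy => by
    apply ContDiffBump.one_of_mem_closedBall
    exact ball_subset_closedBall hy
  have hθn : ∀ j y, 0 ≤ θ j y := fun j y => ContDiffBump.nonneg _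
  have hsub : ∀ j : J, closedBall (j.2 : Cm n) (2 * ρ) ⊆ C.V j.1 := fun j => by
    have h1 := ht j.1 j.2 j.2.2
    refine fun y hy => ?_
    rw [mem_closedBall] at h1 hy
    show dist y (C.c j.1) < 3 * C.r j.1
    have := dist_triangle y (j.2 : Cm n) (C.c j.1)
    have := hr j.1
    linarith
  have hsubΩ : ∀ j : J, closedBall (j.2 : Cm n) (2 * ρ) ⊆ C.Ω j.1 := fun j =>
    (hsub j).trans (V_sub_Ω _)
  -- the sum
  let S : C.I → Cm n → ℝ := fun b z => ∑ j : J, Ext C j.1 (fun _ => θ j) 1 b z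
  have hind : ∀ (j : J) (f : Cm n → ℝ) (γ γ' : Γ) (b : C.I) (z : Cm n),
      Ext C j.1 (fun _ => f) γ b z = Ext C j.1 (fun _ => f) γ' b z := by
    intro j f γ γ' b z
    by_cases hz : z ∈ C.O b j.1
    · rw [Ext_mem hz, Ext_mem hz]
    · rw [Ext_not hz, Ext_not hz]
  have hSinv : ∀ b d, ∀ z ∈ C.O b d, S b z = S d (C.T b d z) := by
    intro b d z hz
    refine Finset.sum_congr rfl fun j _ => ?_
    rw [Ext_change (fun _ => θ j) 1 b d hz]
    exact hind j _ _ _ _ _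
  have hSpos : ∀ b, ∀ z ∈ C.Ω b, 1 ≤ S b z := by
    intro b z hz
    obtain ⟨d, hzd, hd⟩ := C.cover b z hz
    have h1 : C.T b d z ∈ closedBall (C.c d) (C.r d) := ball_subset_closedBall hd
    obtain ⟨x, hx, hxb⟩ : ∃ x ∈ t d, C.T b d z ∈ ball x ρ := by
      have := htc d h1
      simpa using this
    let j : J := ⟨d, ⟨x, hx⟩⟩
    have h2 : Ext C j.1 (fun _ => θ j) 1 b z = 1 := by
      rw [Ext_mem (show z ∈ C.O b j.1 from hzd)]
      exact hθ1 j _ hxb
    have h3 : ∀ j : J, 0 ≤ Ext C j.1 (fun _ => θ j) 1 b z := fun j => by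
      by_cases hzj : z ∈ C.O b j.1
      · rw [Ext_mem hzj]; exact hθn _ _
      · rw [Ext_not hzj]
    calc (1 : ℝ) = Ext C j.1 (fun _ => θ j) 1 b z := h2.symm
      _ ≤ S b z := Finset.single_le_sum (f := fun j : J => Ext C j.1 (fun _ => θ j) 1 b z)
          (fun j _ => h3 j) (Finset.mem_univ j)
  have hSsmooth : ∀ b, ∀ z ∈ C.Ω b, ContDiffAt ℝ ∞ (S b) z := by
    intro b z hz
    have : S b = fun z => ∑ j : J, Ext C j.1 (fun _ => θ j) 1 b z := rfl
    rw [this]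
    refine ContDiffAt.sum fun j _ => ?_
    exact Ext_contDiffAt (isCompact_closedBall (j.2 : Cm n) (2 * ρ)) (hsubΩ j) le_rfl hz
      (fun _ y hy => hθ0 j y hy) (fun _ y _ => (hθs j).contDiffAt) 1
  refine ⟨J, inferInstance, fun j => j.1, fun j => j.2, fun j y => (S j.1 y)⁻¹ * θ j y,
    fun j => ht j.1 j.2 j.2.2, hsub, fun j => ?_, fun j y hy => by
      show (S j.1 y)⁻¹ * θ j y = 0
      rw [hθ0 j y hy, mul_zero], ?_⟩
  · rw [contDiff_iff_contDiffAt]
    intro y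
    by_cases hy : y ∈ closedBall (j.2 : Cm n) (2 * ρ)
    · have h1 := hSpos j.1 y (hsubΩ j hy)
      exact ((hSsmooth j.1 y (hsubΩ j hy)).inv (by linarith)).mul (hθs j).contDiffAt
    · refine (contDiffAt_const (c := (0 : ℝ))).congr_of_eventuallyEq ?_
      filter_upwards [isClosed_closedBall.isOpen_compl.mem_nhds hy] with y' hy'
      rw [hθ0 j y' hy', mul_zero]
  · intro γ b z hz
    have h1 := hSpos b z hz
    have h2 : ∀ j : J, Ext C j.1 (fun _ y => (S j.1 y)⁻¹ * θ j y) γ b z =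
        (S b z)⁻¹ * Ext C j.1 (fun _ => θ j) 1 b z := by
      intro j
      have := Ext_mul_inv (C := C) (a := j.1) (fun b z => (S b z)⁻¹)
        (fun b z hz => by rw [hSinv b j.1 z hz]) (fun _ => θ j) γ b z
      rw [this, hind j _ γ 1]
    show ∑ j : J, Ext C j.1 (fun _ y => (S j.1 y)⁻¹ * θ j y) γ b z = 1
    rw [Finset.sum_congr rfl fun j _ => h2 j, ← Finset.mul_sum]
    exact inv_mul_cancel₀ (by have : (1 : ℝ) ≤ S b z := h1; linarith)

/-- The decomposition of a function on the covering. -/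
theorem pu_sum {α : ℝ} {J : Type} [Fintype J] {a : J → C.I} {Q : J → Set (Cm n)}
    (hQ : ∀ j, Q j ⊆ C.V (a j)) {ψ : J → Cm n → ℝ} (hψ0 : ∀ j y, y ∉ Q j → ψ j y = 0)
    (hsum : ∀ (γ : Γ) (b : C.I), ∀ z ∈ C.Ω b, ∑ j, Ext C (a j) (fun _ => ψ j) γ b z = 1)
    (g : HA C α) (p : Pt C) :
    ∑ j, Ext C (a j) (fun γ y => ψ j y * fam (g : Hol (wt C α) ℝ) γ (a j) y) p.γ p.a p.z =
      (g : Hol (wt C α) ℝ) p := by
  have key : ∀ j, Ext C (a j) (fun γ y => ψ j y * fam (g : Hol (wt C α) ℝ) γ (a j) y) p.γ p.a p.z =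
      Ext C (a j) (fun _ => ψ j) p.γ p.a p.z * (g : Hol (wt C α) ℝ) p := by
    intro j
    by_cases hz : p.z ∈ C.O p.a (a j)
    · rw [Ext_mem hz, Ext_mem hz]
      by_cases hT : C.T p.a (a j) p.z ∈ Q j
      · rw [fam_of_mem _ _ _ (hQ j hT)]
        congr 1
        exact (g.2 p ⟨_, _, _, hQ j hT⟩ ⟨hz, rfl, rfl⟩).symm
      · rw [hψ0 j _ hT, zero_mul, zero_mul]
    · rw [Ext_not hz, Ext_not hz, zero_mul]
  rw [Finset.sum_congr rfl fun j _ => key j, ← Finset.sum_mul, hsum p.γ p.a p.z (V_sub_Ω _ p.mem),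
    one_mul]

end Vale.Agent.P284.H35.CY
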